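import Vale.Agent.P113.H163.Core
import Vale.Agent.P113.H875.HaltRE
import Vale.Agent.P113.H954.Universal

/-!
# P113: halting detection by particle trajectories of forced Navier-Stokes flows from rest

The full positive answer to Q1, with the rational point, the open box and the force compiler
independent of the viscosity, and for every real viscosity `ν > 0`.
-/

open scoped ContDiff

namespace Vale.Agent.Results.P113.HaltingByTrajectories

open Vale.Agent.P113

/-- There are a rational point `a`, a nonempty open box with rational corners `lo`, `hi`, and a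
force compiler `C` such that for every real viscosity `ν > 0`, every machine `M` and every input
`w`, the Navier-Stokes system on `𝕋³` with the force output by `C` on `(M, w)` and zero initial
velocity has a global smooth solution `(u, p)`, unique among classical solutions on each `[0,T]`,
and the trajectory of `a` (which exists for all times and is unique) meets the image of the box in
the torus at some real time `t ≥ 0` if and only if `M` halts on `w`. -/
theorem result :
    ∃ (a lo hi : Fin 3 → ℚ) (C : MachineCode × List ℕ → Fin 3 → List Term),
      (∀ i, lo i < hi i) ∧ IsForceCompiler C ∧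
      ∀ ν : ℝ, 0 < ν → ∀ (M : Machine) (w : List (Fin (M.k + 1))),
        ∃ (u : ℝ → (Fin 3 → ℝ) → Fin 3 → ℝ) (p : ℝ → (Fin 3 → ℝ) → ℝ),
          ContDiff ℝ ∞ (fun z : ℝ × (Fin 3 → ℝ) => u z.1 z.2) ∧
          ContDiff ℝ ∞ (fun z : ℝ × (Fin 3 → ℝ) => p z.1 z.2) ∧
          (∀ T, 0 < T → IsClassicalSolution ν T (force (C (M.code, wordCode w)) ν) u p) ∧
          (∀ T, 0 < T → ∀ v q,
            IsClassicalSolution ν T (force (C (M.code, wordCode w)) ν) v q →
            ∀ t ∈ Set.Icc 0 T, v t = u t ∧ q t = p t) ∧
          ∃ X : ℝ → Fin 3 → ℝ, IsTrajectory u (fun i => a i) X ∧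
            (∀ Y, IsTrajectory u (fun i => a i) Y → ∀ t, 0 ≤ t → Y t = X t) ∧
            ((∃ t, 0 ≤ t ∧ InBox lo hi (X t)) ↔ M.HaltsOn w) :=
  H772.main_of (fun S => H163.core S)
    (fun p hp => H875.universal_blocks_of p (universal_rew p hp)) H875.halting_re
    fun s hs => H803.iteratedDeriv_rho_eq_zero 1 (by rw [le_abs]; exact Or.inl hs)

end Vale.Agent.Results.P113.HaltingByTrajectories
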